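import Vale.Agent.P343.H741.Iface

/-!
Row U: from two-way nondeterministic automata to automata given by nondeterministic boxes.
-/

namespace Vale.Agent.P343.H69

open Relation Vale.Agent.P343 Vale.Agent.P343.H741

section Aut

variable {α σ : Type}

/-- The box of a cell that holds `t`.  The state `none` means that the word has been accepted. -/
def cellN (B : TwoNFA α σ) (t : TapeSym α) : NB (Option σ) := fun c c' =>
  (c.2 = none ∧ c' = (false, none)) ∨
  ∃ q q1, c.2 = some q ∧ ReflTransGen (fun p p' => B.step p t p' Move.stay) q q1 ∧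
    ((q1 ∈ B.accept ∧ c' = (false, none)) ∨
      (∃ q2, B.step q1 t q2 Move.left ∧ c' = (true, some q2)) ∨
      (∃ q2, B.step q1 t q2 Move.right ∧ c' = (false, some q2)))

/-- The box automaton. -/
def toBAut (B : TwoNFA α σ) : BAut α (Option σ) where
  G a := cellN B (TapeSym.letter a)
  bl := cellN B TapeSym.leftEnd
  br := cellN B TapeSym.rightEnd
  start := some B.start
  fin := none

/-- The chain of cells of a word. -/
def cells (B : TwoNFA α σ) (w : List α) (i : ℕ) : NB (Option σ) := cellN B (tape w i)

theorem acc_iff_run (B : TwoNFA α σ) (w : List α) :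
    (toBAut B).Acc w ↔ Rn (cells B w) 0 (w.length + 2) (0, (false, some B.start))
      (w.length + 2, (false, none)) := by
  have h0 : cells B w 0 = cellN B TapeSym.leftEnd := by
    show cellN B (tape w 0) = _
    rw [Box.tape_zero]
  have h1 : cells B w (w.length + 1) = cellN B TapeSym.rightEnd := by
    show cellN B (tape w (w.length + 1)) = _
    rw [Box.tape_last]
  have h2 : seg (cells B w) 1 (1 + w.length) =
      (w.map (fun a => cellN B (TapeSym.letter a))).prod := by
    rw [seg_list]
    congr 1
    apply List.ext_getElem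
    · simp
    · intro i h3 h4
      rw [List.getElem_map, List.getElem_map, List.getElem_range']
      show cellN B (tape w (1 + 1 * i)) = _
      rw [Nat.one_mul, Nat.add_comm 1 i, Box.tape_mid w i (by simpa using h3)]
      rfl
  have h3 : seg (cells B w) 0 (w.length + 2) = cellN B TapeSym.leftEnd *
      (w.map (fun a => cellN B (TapeSym.letter a))).prod * cellN B TapeSym.rightEnd := by
    rw [seg_split (cells B w) (lo := 0) (mid := 1 + w.length) (hi := w.length + 2) (by omega)
      (by omega), seg_split (cells B w) (lo := 0) (mid := 1) (hi := 1 + w.length) (by omega)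
      (by omega), h2, seg_single (cells B w) 0, h0,
      show w.length + 2 = (1 + w.length) + 1 by omega, seg_single,
      show 1 + w.length = w.length + 1 by omega, h1]
  show (cellN B TapeSym.leftEnd * (w.map (fun a => cellN B (TapeSym.letter a))).prod *
    cellN B TapeSym.rightEnd) (false, some B.start) (false, none) ↔ _
  rw [← h3]
  exact Iff.rfl

/-- What is known when the run of boxes is at a boundary. -/
def Inv (B : TwoNFA α σ) (w : List α) (y : ℕ × (Bool × Option σ)) : Prop :=
  (y.2.2 = none → B.Accepts w) ∧
  ∀ q, y.2.2 = some q →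
    (y.2.1 = false → ReflTransGen (B.Next w) (0, B.start) (y.1, q)) ∧
    (y.2.1 = true → ∃ j, y.1 = j + 1 ∧ ReflTransGen (B.Next w) (0, B.start) (j, q))

theorem stay_run {B : TwoNFA α σ} {w : List α} {i : ℕ} {q q1 : σ}
    (h : ReflTransGen (fun p p' => B.step p (tape w i) p' Move.stay) q q1) :
    ReflTransGen (B.Next w) (i, q) (i, q1) := by
  induction h with
  | refl => exact ReflTransGen.refl
  | tail _ h2 ih => exact ih.tail (TwoNFA.Next.stay i _ _ h2)

theorem inv_run {B : TwoNFA α σ} {w : List α} {y : ℕ × (Bool × Option σ)}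
    (h : Rn (cells B w) 0 (w.length + 2) (0, (false, some B.start)) y) : Inv B w y := by
  induction h with
  | refl =>
    refine ⟨fun h => (by cases h), fun q hq => ⟨fun _ => ?_, fun h => by cases h⟩⟩
    cases hq
    exact ReflTransGen.refl
  | tail _ h2 ih =>
    cases h2 with
    | mk i c c' _ _ h5 =>
      obtain ⟨ih1, ih2⟩ := ih
      rcases h5 with ⟨h6, h7⟩ | ⟨q, q1, h6, h7, h8⟩
      · subst h7
        exact ⟨fun _ => ih1 h6, fun q hq => by cases hq⟩
      · have h9 : ReflTransGen (B.Next w) (0, B.start) (i, q) := by
          obtain ⟨h10, h11⟩ := ih2 q h6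
          obtain ⟨d, x⟩ := c
          cases d
          · exact h10 rfl
          · obtain ⟨j, h12, h13⟩ := h11 rfl
            have h14 : i + 1 = j + 1 := h12
            have h15 : i = j := by omega
            rw [h15]
            exact h13
        have h10 : ReflTransGen (B.Next w) (0, B.start) (i, q1) := h9.trans (stay_run h7)
        rcases h8 with ⟨h11, h12⟩ | ⟨q2, h11, h12⟩ | ⟨q2, h11, h12⟩
        · subst h12
          exact ⟨fun _ => ⟨i, q1, h10, h11⟩, fun q hq => by cases hq⟩
        · subst h12
          refine ⟨fun h => (by cases h), fun q hq => ⟨fun h => (by cases h), fun _ => ?_⟩⟩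
          cases hq
          cases i with
          | zero =>
            exfalso
            rw [Box.tape_zero] at h11
            exact B.not_beyond_left _ _ h11
          | succ j => exact ⟨j, rfl, h10.tail (TwoNFA.Next.left j _ _ h11)⟩
        · subst h12
          refine ⟨fun h => (by cases h), fun q hq => ⟨fun _ => ?_, fun h => by cases h⟩⟩
          cases hq
          exact h10.tail (TwoNFA.Next.right i _ _ h11)

/-- Once the word is accepted the head walks to the right end. -/
theorem walk {B : TwoNFA α σ} {w : List α} {i : ℕ} (hi : i ≤ w.length + 2) :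
    Rn (cells B w) 0 (w.length + 2) (i, (false, none)) (w.length + 2, (false, none)) := by
  obtain ⟨k, hk⟩ := Nat.exists_eq_add_of_le hi
  induction k generalizing i with
  | zero =>
    rw [Nat.add_zero] at hk
    rw [hk]
    exact ReflTransGen.refl
  | succ k ih =>
    refine ReflTransGen.head ?_ (ih (i := i + 1) (by omega) (by omega))
    exact St.mk i (false, none) (false, none) (Nat.zero_le _) (by omega) (Or.inl ⟨rfl, rfl⟩)

/-- Runs of boxes from both sides of a cell. -/
def Win (B : TwoNFA α σ) (w : List α) (c : ℕ × σ) : Prop :=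
  Rn (cells B w) 0 (w.length + 2) (c.1, (false, some c.2)) (w.length + 2, (false, none)) ∧
  Rn (cells B w) 0 (w.length + 2) (c.1 + 1, (true, some c.2)) (w.length + 2, (false, none))

/-- The first step of a winning run. -/
theorem first_step {B : TwoNFA α σ} {w : List α} {i : ℕ} {d : Bool} {q : σ}
    (h : Rn (cells B w) 0 (w.length + 2) (ent i (i + 1) d, (d, some q))
      (w.length + 2, (false, none))) :
    ∃ c', cells B w i (d, some q) c' ∧
      Rn (cells B w) 0 (w.length + 2) (ext i (i + 1) c'.1, c') (w.length + 2, (false, none)) := by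
  unfold Rn at h
  rw [ReflTransGen.cases_head_iff] at h
  rcases h with h | ⟨z, h2, h3⟩
  · cases (Prod.mk.inj (Prod.mk.inj h).2).2
  · generalize hx : ((ent i (i + 1) d, (d, some q)) : ℕ × (Bool × Option σ)) = x at h2
    cases h2 with
    | mk j c c' _ _ h6 =>
      obtain ⟨h7, h8⟩ := Prod.mk.inj hx
      subst h8
      have h9 : i = j := by
        cases d
        · exact h7
        · have h10 : i + 1 = j + 1 := h7
          omega
      subst h9
      exact ⟨c', h6, h3⟩

theorem win_of_box {B : TwoNFA α σ} {w : List α} {i : ℕ} {p : σ} (hi : i < w.length + 2)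
    (h : ∀ d, ∃ c', cells B w i (d, some p) c' ∧
      Rn (cells B w) 0 (w.length + 2) (ext i (i + 1) c'.1, c') (w.length + 2, (false, none))) :
    Win B w (i, p) := by
  constructor
  · obtain ⟨c', h1, h2⟩ := h false
    exact ReflTransGen.head (St.mk i (false, some p) c' (Nat.zero_le _) hi h1) h2
  · obtain ⟨c', h1, h2⟩ := h true
    exact ReflTransGen.head (St.mk i (true, some p) c' (Nat.zero_le _) hi h1) h2

theorem win_step {B : TwoNFA α σ} {w : List α} {c c' : ℕ × σ} (h : B.Next w c c')
    (hc : c.1 < w.length + 2) (ih : c'.1 < w.length + 2 → Win B w c') : Win B w c := by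
  cases h with
  | left i p q h1 =>
    simp only at hc ih
    refine win_of_box hc (fun d => ⟨(true, some q), ?_, (ih (by omega)).2⟩)
    exact Or.inr ⟨p, p, rfl, ReflTransGen.refl, Or.inr (Or.inl ⟨q, h1, rfl⟩)⟩
  | right i p q h1 =>
    simp only at hc ih
    have h5 : i + 1 < w.length + 2 := by
      by_contra h6
      have h7 : i = w.length + 1 := by omega
      rw [h7, Box.tape_last] at h1
      exact B.not_beyond_right _ _ h1
    refine win_of_box hc (fun d => ⟨(false, some q), ?_, (ih h5).1⟩)
    exact Or.inr ⟨p, p, rfl, ReflTransGen.refl, Or.inr (Or.inr ⟨q, h1, rfl⟩)⟩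
  | stay i p q h1 =>
    simp only at hc ih
    obtain ⟨h2, h3⟩ := ih hc
    refine win_of_box hc (fun d => ?_)
    have h4 : ∃ c', cells B w i (d, some q) c' ∧
        Rn (cells B w) 0 (w.length + 2) (ext i (i + 1) c'.1, c')
          (w.length + 2, (false, none)) := by
      cases d
      · exact first_step (d := false) h2
      · exact first_step (d := true) h3
    obtain ⟨c', h5, h6⟩ := h4
    refine ⟨c', ?_, h6⟩
    rcases h5 with ⟨h7, _⟩ | ⟨q', q1, h7, h8, h9⟩
    · cases h7
    · cases h7
      exact Or.inr ⟨p, q1, rfl, ReflTransGen.head h1 h8, h9⟩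

theorem toBAut_acc (B : TwoNFA α σ) (w : List α) : (toBAut B).Acc w ↔ B.Accepts w := by
  rw [acc_iff_run]
  constructor
  · intro h
    exact (inv_run h).1 rfl
  · rintro ⟨i, q, h1, h2⟩
    have key : ∀ c : ℕ × σ, ReflTransGen (B.Next w) c (i, q) →
        c.1 < w.length + 2 → Win B w c := by
      intro c hc
      induction hc using ReflTransGen.head_induction_on with
      | refl =>
        intro h3
        refine win_of_box h3 (fun d => ⟨(false, none), ?_, walk (i := i + 1) (by omega)⟩)
        exact Or.inr ⟨q, q, rfl, ReflTransGen.refl, Or.inl ⟨h2, rfl⟩⟩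
      | head h3 _ ih => intro h4; exact win_step h3 h4 ih
    exact (key (0, B.start) h1 (by simp only; omega)).1

end Aut

/-- Row U. -/
theorem aut : AutStmt := by
  intro α s B
  exact ⟨toBAut B, fun w => toBAut_acc B w⟩

end Vale.Agent.P343.H69
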