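import Vale.Agent.P343.H744.Upper

/-!
The subset construction for complements: the complement of the language of a one-way
nondeterministic automaton with `n` states is recognized by a (one-way) deterministic automaton
with `2 ^ n + 1` states.
-/

namespace Vale.Agent.P343.H69

open Vale.Agent.P343 Vale.Agent.P343.Box Vale.Agent.P343.H744

section Subset

variable {α σ : Type}

/-- The subset automaton for the complement: it stops without accepting as soon as the given
automaton can accept, and accepts on the right endmarker otherwise. -/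
def csub (A : TwoNFA α σ) : TwoNFA α (Option (Set σ)) where
  start := some {A.start}
  accept := {none}
  step p t q mv := ∃ S, p = some S ∧ ¬ hit A t S ∧
    ((t ≠ TapeSym.rightEnd ∧ q = some (nxt A t S) ∧ mv = Move.right) ∨
      (t = TapeSym.rightEnd ∧ q = none ∧ mv = Move.stay))
  not_beyond_left := by
    rintro p q ⟨S, _, _, ⟨_, _, h⟩ | ⟨_, _, h⟩⟩ <;> cases h
  not_beyond_right := by
    rintro p q ⟨S, _, _, ⟨h, _⟩ | ⟨_, _, h⟩⟩
    · exact h rfl
    · cases h

theorem csub_deterministic (A : TwoNFA α σ) : (csub A).Deterministic := by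
  rintro p a q q' mv mv' ⟨S, h1, _, h2⟩ ⟨S', h1', _, h2'⟩
  rw [h1] at h1'
  have h3 := Option.some_injective _ h1'
  subst h3
  rcases h2 with ⟨h2, h3, h4⟩ | ⟨h2, h3, h4⟩ <;>
    rcases h2' with ⟨h2', h3', h4'⟩ | ⟨h2', h3', h4'⟩
  · exact ⟨h3.trans h3'.symm, h4.trans h4'.symm⟩
  · exact absurd h2' h2
  · exact absurd h2 h2'
  · exact ⟨h3.trans h3'.symm, h4.trans h4'.symm⟩

theorem csub_run (A : TwoNFA α σ) (w : List α) (i : ℕ) (hi : i ≤ w.length + 1)
    (h : ∀ j < i, ¬ hit A (tape w j) (H744.ent A w j)) :
    Relation.ReflTransGen ((csub A).Next w) (0, (csub A).start) (i, some (H744.ent A w i)) := by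
  induction i with
  | zero => exact Relation.ReflTransGen.refl
  | succ i ih =>
    refine (ih (by omega) (fun j hj => h j (by omega))).tail (TwoNFA.Next.right _ _ _ ?_)
    exact ⟨_, rfl, h i (by omega), Or.inl ⟨tape_ne (by omega), rfl, rfl⟩⟩

theorem csub_path (A : TwoNFA α σ) (w : List α) {c : ℕ × Option (Set σ)}
    (h : Relation.ReflTransGen ((csub A).Next w) (0, (csub A).start) c) :
    (c.2 = some (H744.ent A w c.1) ∧ (∀ j < c.1, ¬ hit A (tape w j) (H744.ent A w j)) ∧
      c.1 ≤ w.length + 1) ∨
    (c.2 = none ∧ ∀ j ≤ w.length + 1, ¬ hit A (tape w j) (H744.ent A w j)) := by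
  induction h with
  | refl => exact Or.inl ⟨rfl, fun j hj => absurd hj (Nat.not_lt_zero j), Nat.zero_le _⟩
  | tail _ h1 ih =>
    cases h1 with
    | left i p q h =>
      obtain ⟨S, _, _, ⟨_, _, h⟩ | ⟨_, _, h⟩⟩ := h <;> cases h
    | stay i p q h =>
      obtain ⟨S, h2, h3, ⟨_, _, h⟩ | ⟨h4, h5, _⟩⟩ := h
      · cases h
      · rcases ih with ⟨h6, h7, h8⟩ | ⟨h6, _⟩
        · have h9 := Option.some_injective _ (h2.symm.trans h6)
          subst h9
          refine Or.inr ⟨h5, ?_⟩
          have h10 : i = w.length + 1 := by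
            by_contra h11
            simp only at h8
            exact tape_ne (w := w) (i := i) (by omega) h4
          intro j hj
          rcases Nat.lt_or_ge j i with h12 | h12
          · exact h7 j h12
          · have h13 : j = i := by omega
            rw [h13]
            exact h3
        · have h7 : p = none := h6
          rw [h2] at h7
          cases h7
    | right i p q h =>
      obtain ⟨S, h2, h3, ⟨h4, h5, _⟩ | ⟨_, _, h⟩⟩ := h
      · rcases ih with ⟨h6, h7, h8⟩ | ⟨h6, _⟩
        · have h9 := Option.some_injective _ (h2.symm.trans h6)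
          subst h9
          refine Or.inl ⟨h5, ?_, ?_⟩
          · intro j hj
            simp only at hj h7
            rcases Nat.lt_or_ge j i with h12 | h12
            · exact h7 j h12
            · have h13 : j = i := by omega
              rw [h13]
              exact h3
          · simp only at h8 ⊢
            by_contra h11
            exact h4 (tape_eq (by omega))
        · have h7 : p = none := h6
          rw [h2] at h7
          cases h7
      · cases h

theorem hit_iff {A : TwoNFA α σ} (hA : A.OneWay) (w : List α) :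
    A.Accepts w ↔ ∃ i ≤ w.length + 1, hit A (tape w i) (H744.ent A w i) := by
  constructor
  · rintro ⟨i, q, h1, h2⟩
    have h4 : hit A (tape w i) (H744.ent A w i) := ⟨q, reach_mem hA h1, h2⟩
    refine ⟨i, ?_, h4⟩
    by_contra h6
    push Not at h6
    obtain ⟨k, hk⟩ : ∃ k, i = k + 1 := ⟨i - 1, by omega⟩
    obtain ⟨x, ⟨y, hy, _⟩, _⟩ := h4
    rw [hk] at hy
    obtain ⟨z, _, hz⟩ := (hy : y ∈ nxt A (tape w k) (H744.ent A w k))
    rw [tape_eq (by omega)] at hz
    exact A.not_beyond_right _ _ hz
  · rintro ⟨i, _, x, hx, hacc⟩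
    exact ⟨i, x, cl_reach (ent_reach A w i) x hx, hacc⟩

theorem csub_accepts {A : TwoNFA α σ} (hA : A.OneWay) (w : List α) :
    (csub A).Accepts w ↔ ¬ A.Accepts w := by
  rw [hit_iff hA]
  constructor
  · rintro ⟨i, q, h1, h2⟩ ⟨j, hj, hit⟩
    have h3 : q = none := h2
    subst h3
    rcases csub_path A w h1 with ⟨h4, _⟩ | ⟨_, h4⟩
    · cases h4
    · exact h4 j hj hit
  · intro h
    have h1 : ∀ j ≤ w.length + 1, ¬ hit A (tape w j) (H744.ent A w j) :=
      fun j hj hj' => h ⟨j, hj, hj'⟩
    refine ⟨w.length + 1, none, (csub_run A w (w.length + 1) le_rfl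
      (fun j hj => h1 j (by omega))).tail (TwoNFA.Next.stay _ _ _ ?_), rfl⟩
    exact ⟨_, rfl, h1 _ le_rfl, Or.inr ⟨tape_eq (by omega), rfl, rfl⟩⟩

end Subset

/-- The subset construction for complements. -/
theorem compl_upper : ∀ (α : Type) (n : ℕ) (A : TwoNFA α (Fin n)), A.OneWay →
    ∃ B : TwoNFA α (Fin (2 ^ n + 1)), B.Deterministic ∧ ∀ w, B.Accepts w ↔ ¬ A.Accepts w := by
  classical
  intro α n A hA
  have hcard : Fintype.card (Option (Set (Fin n))) = 2 ^ n + 1 := by
    rw [Fintype.card_option, Fintype.card_set, Fintype.card_fin]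
  let e := Fintype.equivFinOfCardEq hcard
  refine ⟨transport e (csub A), transport_deterministic e (csub_deterministic A), fun w => ?_⟩
  rw [transport_accepts]
  exact csub_accepts hA w

end Vale.Agent.P343.H69
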