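import Vale.Agent.P343.Defs

namespace Vale.Agent.P343

/-- All nondeterministic choices are made on the two endmarkers: for each state and each letter
there is at most one transition. -/
def TwoNFA.DeterministicOnLetters {α σ : Type} (A : TwoNFA α σ) : Prop :=
  ∀ p a q q' mv mv', A.step p (TapeSym.letter a) q mv → A.step p (TapeSym.letter a) q' mv' →
    q = q' ∧ mv = mv'

end Vale.Agent.P343
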