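import Vale.Agent.P343.H69.Defs
import Vale.Agent.P343.Bdl.B1

/-!
For an automaton that is deterministic on letters, acceptance of a word is determined by the box
of the word, whatever the automaton does on the two endmarkers.
-/

namespace Vale.Agent.P343.H69

open Vale.Agent.P343 Vale.Agent.P343.Box

variable {α Q : Type}

/-- The automaton without its transitions on the endmarkers. -/
def core (B : TwoNFA α Q) : TwoNFA α Q where
  start := B.start
  accept := B.accept
  step p t q mv := (∃ a, t = TapeSym.letter a) ∧ B.step p t q mv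
  not_beyond_left := by
    rintro p q ⟨⟨a, h⟩, _⟩
    cases h
  not_beyond_right := by
    rintro p q ⟨⟨a, h⟩, _⟩
    cases h

theorem core_det {B : TwoNFA α Q} (hB : B.DeterministicOnLetters) : (core B).Deterministic := by
  rintro p t q q' mv mv' ⟨⟨a, rfl⟩, h1⟩ ⟨_, h2⟩
  exact hB p a q q' mv mv' h1 h2

theorem next_core {B : TwoNFA α Q} {w : List α} {c c' : ℕ × Q} (h : (core B).Next w c c') :
    B.Next w c c' := by
  cases h with
  | left i p q h => exact TwoNFA.Next.left i p q h.2
  | stay i p q h => exact TwoNFA.Next.stay i p q h.2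
  | right i p q h => exact TwoNFA.Next.right i p q h.2

theorem run_core {B : TwoNFA α Q} {w : List α} {c c' : ℕ × Q}
    (h : Relation.ReflTransGen ((core B).Next w) c c') :
    Relation.ReflTransGen (B.Next w) c c' := by
  induction h with
  | refl => exact Relation.ReflTransGen.refl
  | tail _ h2 ih => exact ih.tail (next_core h2)

/-- The box of a letter. -/
noncomputable def lbox (B : TwoNFA α Q) (a : α) : Box Unit Q := cell (core B) (TapeSym.letter a)

/-- An accepting state can be reached. -/
def Good (B : TwoNFA α Q) (w : List α) (c : ℕ × Q) : Prop :=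
  ∃ i q, Relation.ReflTransGen (B.Next w) c (i, q) ∧ q ∈ B.accept

theorem Good.step {B : TwoNFA α Q} {w : List α} {c c' : ℕ × Q} (h : B.Next w c c')
    (h' : Good B w c') : Good B w c := by
  obtain ⟨i, q, h1, h2⟩ := h'
  exact ⟨i, q, Relation.ReflTransGen.head h h1, h2⟩

theorem Good.run {B : TwoNFA α Q} {w : List α} {c c' : ℕ × Q}
    (h : Relation.ReflTransGen (B.Next w) c c') (h' : Good B w c') : Good B w c := by
  obtain ⟨i, q, h1, h2⟩ := h'
  exact ⟨i, q, h.trans h1, h2⟩

/-- Runs inside the word. -/
abbrev In (B : TwoNFA α Q) (w : List α) (i : ℕ) (d : Bool) (q : Q) (o : Out Unit Q) : Prop :=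
  Ev (fun i => cell (core B) (tape w i)) 1 (w.length + 1) i d q o

theorem word_lbox (B : TwoNFA α Q) (w : List α) :
    evalBox (fun i => cell (core B) (tape w i)) 1 (w.length + 1) = word (lbox B) w := by
  rw [Nat.add_comm w.length 1]
  apply evalBox_list (fun i => cell (core B) (tape w i)) (lbox B) w 1
  intro k h
  show cell (core B) (tape w (1 + k)) = _
  rw [Nat.add_comm 1 k, tape_mid w k h]
  rfl

/-- What an outcome is worth on `w`: after leaving the word the automaton must be able to
accept. -/
def Worth (B : TwoNFA α Q) (w : List α) : Out Unit Q → Prop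
  | Out.stop _ => True
  | Out.lft q => Good B w (0, q)
  | Out.rgt q => Good B w (w.length + 1, q)

/-- A run inside the word is a run. -/
theorem in_run {B : TwoNFA α Q} (hB : B.DeterministicOnLetters) {w : List α} {i : ℕ} {d : Bool}
    {q : Q} {o : Out Unit Q} (h : In B w i d q o) (ho : Worth B w o) :
    ∀ j, (d = false → i = j) → (d = true → i = j + 1) → Good B w (j, q) := by
  have hc := core_det hB
  induction h with
  | @exitR i q h1 =>
    intro j h2 _
    have h2 := h2 rfl
    subst h2
    subst h1
    exact ho
  | @exitL i q h1 =>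
    intro j _ h2
    have h2 := h2 rfl
    have h3 : j = 0 := by omega
    subst h3
    exact ho
  | stopR h1 h2 =>
    intro j h3 _
    have h3 := h3 rfl
    subst h3
    obtain ⟨q', h4, h5⟩ := (visit_run ((cell_eq_some hc).1 h2)).1 rfl
    exact ⟨_, q', run_core h4, h5⟩
  | @rr i q q' o h1 h2 _ ih =>
    intro j h3 _
    have h3 := h3 rfl
    subst h3
    have h4 := (visit_run ((cell_eq_some hc).1 h2)).2.1 _ rfl
    exact Good.run (run_core h4) (ih ho (i + 1) (fun _ => rfl) (by simp))
  | @rl i q q' o h1 h2 _ ih =>
    intro j h3 _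
    have h3 := h3 rfl
    subst h3
    obtain ⟨j, h4, h7⟩ := (visit_run ((cell_eq_some hc).1 h2)).2.2 _ rfl
    exact Good.run (run_core h7) (ih ho j (by simp) (fun _ => h4))
  | @stopL i j0 q k hj h1 h2 =>
    intro j _ h3
    have h3 := h3 rfl
    have : i = j := by omega
    subst this
    obtain ⟨q', h4, h5⟩ := (visit_run ((cell_eq_some hc).1 h2)).1 rfl
    exact ⟨_, q', run_core h4, h5⟩
  | @ll i j0 q q' o hj h1 h2 _ ih =>
    intro j _ h3
    have h3 := h3 rfl
    have : i = j := by omega
    subst this
    obtain ⟨j, h4, h7⟩ := (visit_run ((cell_eq_some hc).1 h2)).2.2 _ rfl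
    exact Good.run (run_core h7) (ih ho j (by simp) (fun _ => h4))
  | @lr i j0 q q' o hj h1 h2 _ ih =>
    intro j _ h3
    have h3 := h3 rfl
    have : i = j := by omega
    subst this
    have h4 := (visit_run ((cell_eq_some hc).1 h2)).2.1 _ rfl
    exact Good.run (run_core h4) (ih ho (i + 1) (fun _ => by omega) (by simp))

/-- The configuration `(i, q)` on `u` is matched on `v`. -/
def Match (B : TwoNFA α Q) (u v : List α) (i : ℕ) (q : Q) : Prop :=
  (1 ≤ i → ∃ o, In B u i false q o ∧ Worth B v o) ∧
    (i ≤ u.length → ∃ o, In B u (i + 1) true q o ∧ Worth B v o)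

theorem match_zero {B : TwoNFA α Q} {u v : List α} {q : Q} :
    Match B u v 0 q ↔ Good B v (0, q) := by
  constructor
  · rintro ⟨_, h⟩
    obtain ⟨o, h1, h2⟩ := h (Nat.zero_le _)
    cases h1 with
    | exitL _ => exact h2
    | stopL _ h _ => omega
    | ll _ h _ _ => omega
    | lr _ h _ _ => omega
  · intro h
    exact ⟨fun h1 => by omega, fun _ => ⟨Out.lft q, Ev.exitL rfl, h⟩⟩

theorem match_last {B : TwoNFA α Q} {u v : List α} {q : Q} :
    Match B u v (u.length + 1) q ↔ Good B v (v.length + 1, q) := by
  constructor
  · rintro ⟨h, _⟩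
    obtain ⟨o, h1, h2⟩ := h (by omega)
    cases h1 with
    | exitR _ => exact h2
    | stopR h _ => omega
    | rr h _ _ => omega
    | rl h _ _ => omega
  · intro h
    exact ⟨fun _ => ⟨Out.rgt q, Ev.exitR rfl, h⟩, fun h1 => by omega⟩

theorem tape_letter {w : List α} {i : ℕ} (h1 : 1 ≤ i) (h2 : i ≤ w.length) :
    ∃ a, tape w i = TapeSym.letter a := by
  obtain ⟨k, rfl⟩ := Nat.exists_eq_add_of_le' h1
  exact ⟨_, tape_mid w k (by omega)⟩

theorem match_step {B : TwoNFA α Q} (hB : B.DeterministicOnLetters) {u v : List α}
    (hbox : word (lbox B) u = word (lbox B) v) {c c' : ℕ × Q}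
    (h : B.Next u c c') (hc : c.1 ≤ u.length + 1)
    (ih : c'.1 ≤ u.length + 1 → Match B u v c'.1 c'.2) : Match B u v c.1 c.2 := by
  have hd := core_det hB
  -- leaving the left endmarker
  have goR : ∀ q o, In B u 1 false q o → Worth B v o → Good B v (1, q) := by
    intro q o h1 h2
    have h3 : word (lbox B) u false q = some o := by
      rw [← word_lbox, evalBox_false]; exact h1
    rw [hbox, ← word_lbox, evalBox_false] at h3
    exact in_run hB h3 h2 1 (fun _ => rfl) (by simp)
  -- leaving the right endmarker
  have goL : ∀ q o, In B u (u.length + 1) true q o → Worth B v o → Good B v (v.length, q) := by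
    intro q o h1 h2
    have h3 : word (lbox B) u true q = some o := by
      rw [← word_lbox, evalBox_true]; exact h1
    rw [hbox, ← word_lbox, evalBox_true] at h3
    exact in_run hB h3 h2 v.length (by simp) (fun _ => rfl)
  by_cases h0 : c.1 = 0
  · -- on the left endmarker
    obtain ⟨i, q⟩ := c
    obtain ⟨i', q'⟩ := c'
    simp only at h0 hc ih ⊢
    subst h0
    rw [match_zero]
    generalize hx : ((0 : ℕ), q) = x at h
    generalize hy : (i', q') = y at h
    cases h with
    | left i p r h1 => simp at hx
    | stay i p r h1 =>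
      obtain ⟨h2, h3⟩ := Prod.mk.inj hx
      obtain ⟨h4, h5⟩ := Prod.mk.inj hy
      subst h2 h3 h4 h5
      rw [tape_zero] at h1
      have h6 : B.Next v (0, q) (0, q') := TwoNFA.Next.stay 0 q q' (by rw [tape_zero]; exact h1)
      exact Good.step h6 (match_zero.1 (ih (by omega)))
    | right i p r h1 =>
      obtain ⟨h2, h3⟩ := Prod.mk.inj hx
      obtain ⟨h4, h5⟩ := Prod.mk.inj hy
      subst h2 h3 h4 h5
      rw [tape_zero] at h1
      have h6 : B.Next v (0, q) (0 + 1, q') :=
        TwoNFA.Next.right 0 q q' (by rw [tape_zero]; exact h1)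
      obtain ⟨o, h7, h8⟩ := (ih (by omega)).1 (by omega)
      exact Good.step h6 (goR q' o h7 h8)
  · by_cases hl : c.1 = u.length + 1
    · -- on the right endmarker
      obtain ⟨i, q⟩ := c
      obtain ⟨i', q'⟩ := c'
      simp only at h0 hl hc ih ⊢
      subst hl
      rw [match_last]
      generalize hx : (u.length + 1, q) = x at h
      generalize hy : (i', q') = y at h
      cases h with
      | left i p r h1 =>
        obtain ⟨h2, h3⟩ := Prod.mk.inj hx
        obtain ⟨h4, h5⟩ := Prod.mk.inj hy
        have h2' : i = u.length := by omega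
        subst h2' h3 h4 h5
        rw [tape_last] at h1
        have h6 : B.Next v (v.length + 1, q) (v.length, q') :=
          TwoNFA.Next.left v.length q q' (by rw [tape_last]; exact h1)
        obtain ⟨o, h7, h8⟩ := (ih (by omega)).2 (by omega)
        exact Good.step h6 (goL q' o h7 h8)
      | stay i p r h1 =>
        obtain ⟨h2, h3⟩ := Prod.mk.inj hx
        obtain ⟨h4, h5⟩ := Prod.mk.inj hy
        subst h2 h3 h4 h5
        rw [tape_last] at h1
        have h6 : B.Next v (v.length + 1, q) (v.length + 1, q') :=
          TwoNFA.Next.stay _ q q' (by rw [tape_last]; exact h1)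
        exact Good.step h6 (match_last.1 (ih (by omega)))
      | right i p r h1 =>
        exfalso
        obtain ⟨h2, h3⟩ := Prod.mk.inj hx
        subst h2
        rw [tape_last] at h1
        exact B.not_beyond_right _ _ h1
    · -- inside the word
      obtain ⟨a, ha⟩ := tape_letter (w := u) (i := c.1) (by omega) (by omega)
      by_cases hq : c.2 ∈ B.accept
      · have h4 : ∀ s, cell (core B) (tape u c.1) s c.2 = some (Out.stop ()) :=
          fun s => (cell_eq_some hd).2 (Visit.acc hq)
        exact ⟨fun _ => ⟨Out.stop (), Ev.stopR (by omega) (h4 false), trivial⟩,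
          fun _ => ⟨Out.stop (), Ev.stopL rfl (by omega) (h4 true), trivial⟩⟩
      cases h with
      | left i p q h1 =>
        simp only at hc ih h0 hl ha hq ⊢
        obtain ⟨_, h3⟩ := ih (by omega)
        obtain ⟨o, h5, h6⟩ := h3 (by omega)
        have h4 : ∀ s, cell (core B) (tape u (i + 1)) s p = some (Out.lft q) :=
          fun s => (cell_eq_some hd).2 (Visit.lft hq ⟨⟨a, ha⟩, h1⟩)
        exact ⟨fun _ => ⟨o, Ev.rl (by omega) (h4 false) h5, h6⟩,
          fun _ => ⟨o, Ev.ll rfl (by omega) (h4 true) h5, h6⟩⟩
      | right i p q h1 =>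
        simp only at hc ih h0 hl ha hq ⊢
        obtain ⟨h3, _⟩ := ih (by omega)
        obtain ⟨o, h5, h6⟩ := h3 (by omega)
        have h4 : ∀ s, cell (core B) (tape u i) s p = some (Out.rgt q) :=
          fun s => (cell_eq_some hd).2 (Visit.rgt hq ⟨⟨a, ha⟩, h1⟩)
        exact ⟨fun _ => ⟨o, Ev.rr (by omega) (h4 false) h5, h6⟩,
          fun _ => ⟨o, Ev.lr rfl (by omega) (h4 true) h5, h6⟩⟩
      | stay i p q h1 =>
        simp only at hc ih h0 hl ha hq ⊢
        obtain ⟨h2, h3⟩ := ih (by omega)
        obtain ⟨o, h5, h6⟩ := h2 (by omega)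
        obtain ⟨o', h7, h8⟩ := h3 (by omega)
        have h4 : ∀ s, cell (core B) (tape u i) s p = cell (core B) (tape u i) s q :=
          fun s => cell_stay hd hq ⟨⟨a, ha⟩, h1⟩
        constructor
        · intro _
          refine ⟨o, ?_, h6⟩
          cases h5 with
          | exitR h9 => omega
          | stopR h9 h10 => exact Ev.stopR h9 ((h4 false).trans h10)
          | rr h9 h10 h11 => exact Ev.rr h9 ((h4 false).trans h10) h11
          | rl h9 h10 h11 => exact Ev.rl h9 ((h4 false).trans h10) h11
        · intro _
          refine ⟨o', ?_, h8⟩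
          cases h7 with
          | exitL h9 => omega
          | @stopL i2 _ _ _ hj h9 h10 =>
            have : i = i2 := by omega
            subst this
            exact Ev.stopL hj h9 ((h4 true).trans h10)
          | @ll i2 _ _ _ _ hj h9 h10 h11 =>
            have : i = i2 := by omega
            subst this
            exact Ev.ll hj h9 ((h4 true).trans h10) h11
          | @lr i2 _ _ _ _ hj h9 h10 h11 =>
            have : i = i2 := by omega
            subst this
            exact Ev.lr hj h9 ((h4 true).trans h10) h11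

/-- Words with the same box cannot be told apart, whatever happens on the endmarkers. -/
theorem good_of_box_eq {B : TwoNFA α Q} (hB : B.DeterministicOnLetters) {u v : List α}
    (hbox : word (lbox B) u = word (lbox B) v) {q : Q} (h : Good B u (0, q)) :
    Good B v (0, q) := by
  obtain ⟨i, r, h1, h2⟩ := h
  have key : ∀ c : ℕ × Q, Relation.ReflTransGen (B.Next u) c (i, r) →
      c.1 ≤ u.length + 1 → Match B u v c.1 c.2 := by
    intro c hc
    induction hc using Relation.ReflTransGen.head_induction_on with
    | refl =>
      intro h3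
      simp only at h3 ⊢
      by_cases h0 : i = 0
      · subst h0
        exact match_zero.2 ⟨0, r, Relation.ReflTransGen.refl, h2⟩
      · by_cases hl : i = u.length + 1
        · subst hl
          exact match_last.2 ⟨_, r, Relation.ReflTransGen.refl, h2⟩
        · have h4 : ∀ s, cell (core B) (tape u i) s r = some (Out.stop ()) :=
            fun s => (cell_eq_some (core_det hB)).2 (Visit.acc h2)
          exact ⟨fun _ => ⟨Out.stop (), Ev.stopR (by omega) (h4 false), trivial⟩,
            fun _ => ⟨Out.stop (), Ev.stopL rfl (by omega) (h4 true), trivial⟩⟩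
    | head h3 _ ih => intro h4; exact match_step hB hbox h3 h4 ih
  exact match_zero.1 (key (0, q) h1 (Nat.zero_le _))

end Vale.Agent.P343.H69
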