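import Vale.Agent.P343.Bdl.B1

/-!
The lower bound for families of letter boxes whose products determine membership, with no
restriction on how membership is read off from the box of a word.
-/

namespace Vale.Agent.P343.H69

open Vale.Agent.P343 Vale.Agent.P343.Box

/-- The box of a word determines whether the word is in the language on the tracks `V`. -/
def Sees {V Q : Type} (s0 f0 : V) (G : Sym V → Box Unit Q) : Prop :=
  ∀ u v : List (Sym V), word G u = word G v → RLang s0 f0 u → RLang s0 f0 v

/-- Letter boxes in normal form with activity at most `a`. -/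
def NormG {V Q : Type} (G : Sym V → Box Unit Q) (a : ℕ) : Prop :=
  ∃ (P : Finset (Bool × Q)) (Act : Fin 3 × V → Finset (Bool × Q)),
    (∀ t, (Act t).card ≤ a) ∧
    (∀ s q o, G (idSym V) s q = some o ↔ (s, q) ∈ P ∧ o = pass s q) ∧
    (∀ σ s q, (s, q) ∉ P → G σ s q = none) ∧
    (∀ σ, ∀ p ∈ P, (∀ t, bits σ t ≠ bits (idSym V) t → p ∉ Act t) →
      G σ p.1 p.2 = some (pass p.1 p.2))

/-- Localization. -/
theorem localizeG {V W : Type} {s0 f0 : V} {ι : V → W} (hι : Function.Injective ι) {Q : Type}
    [Fintype Q] (G : Sym W → Box Unit Q) (hM : Sees (ι s0) (ι f0) G)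
    (Y : List (Sym W)) (m : Sym V → List (Sym W))
    (hY : ∀ S : Set V, acts Y (ι '' S) = ι '' S)
    (hm : ∀ (a : Sym V) (S : Set V), acts (m a) (ι '' S) = ι '' (a.act S)) :
    Sees s0 f0 (fun a => toLoc (word G Y) (word G (m a))) := by
  have key : ∀ ws : List (Sym V), RLang (ι s0) (ι f0) (Y ++ ws.flatMap (fun a => m a ++ Y)) ↔
      RLang s0 f0 ws := by
    intro ws
    unfold RLang
    rw [← Set.image_singleton, acts_macro ι Y m hY hm]
    exact hι.mem_set_image
  intro u v huv hu
  rw [← key] at hu ⊢
  refine hM _ _ ?_ hu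
  have h1 := sandwich G Y u m
  have h2 := sandwich G Y v m
  rw [← h1, ← h2]
  unfold word at huv ⊢
  rw [huv]

open Classical in
/-- One level of the recursion. -/
theorem norm_stepG (hw : LinWordsStmt) {V : Type} [Fintype V] {s0 f0 : V} {n : ℕ} (hn : 0 < n)
    {Q : Type} [Fintype Q] (G : Sym (Ext V n) → Box Unit Q)
    (hM : Sees (Sum.inl s0 : Ext V n) (Sum.inl f0) G)
    {a : ℕ} (hNorm : NormG G a) :
    ∃ (G1 : Sym V → Box Unit Q) (a' : ℕ), NormG G1 a' ∧ n * a' ≤ 4 * a ∧ Sees s0 f0 G1 := by
  obtain ⟨P, Act, hAct, hid, hnone, hpass⟩ := hNorm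
  -- the ports touched by the chain
  set U : Finset (Bool × Q) :=
    Finset.univ.biUnion (fun i : Fin n => Act (0, trkW V i) ∪ Act (1, trkP V i)) with hU
  have hUcard : U.card ≤ n * (2 * a) := by
    rw [hU]
    refine Finset.card_biUnion_le.trans ?_
    calc ∑ i : Fin n, (Act (0, trkW V i) ∪ Act (1, trkP V i)).card
        ≤ ∑ _i : Fin n, 2 * a := by
          apply Finset.sum_le_sum
          intro i _
          refine (Finset.card_union_le _ _).trans ?_
          have h1 := hAct (0, trkW V i)
          have h2 := hAct (1, trkP V i)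
          omega
      _ = n * (2 * a) := by simp only [Finset.sum_const, Finset.card_univ, Fintype.card_fin, smul_eq_mul]
  have hUpass : ∀ c, c < n * n → ∀ p ∈ P, p ∉ U →
      G (edgeN V n c) p.1 p.2 = some (pass p.1 p.2) := by
    intro c _ p hp hpU
    apply hpass _ p hp
    rintro ⟨k, y⟩ hne hmem
    apply hpU
    rw [hU, Finset.mem_biUnion]
    rw [bits_idSym] at hne
    unfold bits edgeN at hne
    simp only at hne
    by_cases h0 : k = 0
    · subst h0
      simp only [if_true, ne_eq, not_true_eq_false, false_and, decide_false,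
        Bool.not_eq_false] at hne
      obtain ⟨i, rfl, _⟩ := isW_iff.1 hne
      exact ⟨i, Finset.mem_univ _, Finset.mem_union_left _ hmem⟩
    · by_cases h1 : k = 1
      · subst h1
        simp only [one_ne_zero, if_false, if_true, ne_eq, not_false_eq_true, not_true_eq_false,
          and_false, decide_false, Bool.not_eq_false] at hne
        obtain ⟨i, rfl, _⟩ := isP_iff.1 hne
        exact ⟨i, Finset.mem_univ _, Finset.mem_union_right _ hmem⟩
      · simp [h0, h1] at hne
  obtain ⟨L0, L1, c, he, hf, hef, hfe, hrk, hcount, hact⟩ :=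
    hw (V := V) n hn G P U hid hUpass
  set e := word G L0 with hedef
  set f := word G L1 with hfdef
  have hports := card_ports_toLoc he hef hfe hf
  set τ0 := loc e
  set τ1 := toLoc e f
  have hrk' : rank f ≤ rank e := by rw [← hef]; exact rank_mul_le_left _ _
  have hN : n * (ports τ1 τ0).card ≤ 4 * a := by
    have h1 : (ports τ1 τ0).card ≤ 2 * (rank e - rank f) := by omega
    have h2 : n * (n * (ports τ1 τ0).card) ≤ n * (4 * a) := by
      calc n * (n * (ports τ1 τ0).card) ≤ n * (n * (2 * (rank e - rank f))) := by (clear * - h1; gcongr)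
        _ = 2 * (n * n * (rank e - rank f)) := by ring
        _ ≤ 2 * U.card := Nat.mul_le_mul_left _ hrk
        _ ≤ 2 * (n * (2 * a)) := Nat.mul_le_mul_left _ hUcard
        _ = n * (4 * a) := by ring
    exact Nat.le_of_mul_le_mul_left h2 hn
  -- the cells
  let w : Sym V → List (Sym (Ext V n)) := fun a => expand L0 L1 (bits a) c
  let w0 := w (idSym V)
  obtain ⟨k, hk, hidem⟩ := exists_pow_idem (word G w0)
  set e' := word G (rep w0 k) with he'def
  have he'pow : e' = word G w0 ^ k := word_rep _ _ _
  have he' : e' * e' = e' := by rw [he'pow]; exact hidem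
  let m : Sym V → List (Sym (Ext V n)) := fun a => w a ++ rep w0 (k - 1)
  have hm0 : word G (m (idSym V)) = e' := by
    show word G (w0 ++ rep w0 (k - 1)) = e'
    rw [word_append, word_rep, ← pow_succ', he'pow]
    congr 1
    omega
  have hact0 : ∀ S : Set V, acts w0 (Sum.inl '' S) = Sum.inl '' S := by
    intro S
    show acts (expand L0 L1 (bits (idSym V)) c) (Sum.inl '' S) = Sum.inl '' S
    rw [hact, idSym_act]
  have hactY : ∀ S : Set V, acts (rep w0 k) (Sum.inl '' S) = (Sum.inl '' S : Set (Ext V n)) :=
    fun S => acts_rep1 _ _ hact0 k S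
  have hactm : ∀ (a : Sym V) (S : Set V),
      acts (m a) (Sum.inl '' S) = (Sum.inl '' (a.act S) : Set (Ext V n)) := by
    intro a S
    show acts (w a ++ rep w0 (k - 1)) (Sum.inl '' S) = _
    rw [acts_append]
    show acts (rep w0 (k - 1)) (acts (expand L0 L1 (bits a) c) (Sum.inl '' S)) = _
    rw [hact, acts_rep1 _ _ hact0]
  let Lp : List (Box Unit Q ⊕ (Fin 3 × V)) :=
    [Sum.inl (splitV e')] ++ c.flatMap (piece G e) ++
      [Sum.inl (word G (rep w0 (k - 1))), Sum.inl (splitU e')]
  have hLpval : ∀ a : Sym V, pval τ0 τ1 (bits a) Lp = toLoc e' (word G (m a)) := by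
    intro a
    show pval τ0 τ1 (bits a) ([Sum.inl (splitV e')] ++ c.flatMap (piece G e) ++
      [Sum.inl (word G (rep w0 (k - 1))), Sum.inl (splitU e')]) = _
    rw [pval_append, pval_append, pval_pieces G L0 L1 he hef hfe]
    have h1 : pval τ0 τ1 (bits a) [Sum.inl (splitV e')] = splitV e' := by simp [pval]
    have h2 : pval τ0 τ1 (bits a) [Sum.inl (word G (rep w0 (k - 1))), Sum.inl (splitU e')] =
        word G (rep w0 (k - 1)) * splitU e' := by simp only [pval, List.map_cons, Sum.elim_inl, id_eq, List.map_nil, List.prod_cons, List.prod_nil, mul_one]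
    rw [h1, h2]
    unfold toLoc
    have h3 : word G (m a) = word G (expand L0 L1 (bits a) c) *
        word G (rep w0 (k - 1)) := word_append _ _ _
    rw [h3]
    simp only [mul_assoc]
  have hLpcount : ∀ t, Lp.countP (isT t) = 1 := by
    intro t
    show ([Sum.inl (splitV e')] ++ c.flatMap (piece G e) ++
      [Sum.inl (word G (rep w0 (k - 1))), Sum.inl (splitU e')] :
        List (Box Unit Q ⊕ (Fin 3 × V))).countP (isT t) = _
    rw [List.countP_append, List.countP_append, countP_isT_pieces, hcount]
    simp only [isT, Sum.elim_inl, Bool.false_eq_true, not_false_eq_true, List.countP_cons_of_neg, List.countP_nil, zero_add, add_zero]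
  obtain ⟨Act', hAct'card, hAct'pass⟩ := active_fine τ0 τ1 Lp (bits (idSym V)) (dom e') (by
    rintro ⟨s, q⟩ hp
    rw [hLpval, hm0, toLoc_self e' he']
    exact (loc_iff he' s q _).2 ⟨hp, rfl⟩)
  refine ⟨fun a => toLoc e' (word G (m a)),
    (ports τ1 τ0).card, ⟨dom e', Act', ?_, ?_, ?_, ?_⟩, hN, ?_⟩
  · intro t
    have := hAct'card t
    rwa [hLpcount, one_mul] at this
  · intro s q o
    show toLoc e' (word G (m (idSym V))) s q = some o ↔ _
    rw [hm0, toLoc_self e' he']
    exact loc_iff he' s q o
  · intro σ s q h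
    exact toLoc_none h
  · intro σ p hp h
    have := hAct'pass p hp (bits σ) h
    rw [hLpval] at this
    exact this
  · exact localizeG Sum.inl_injective G hM (rep w0 k) m hactY hactm

/-- A letter that connects the start track to the final track. -/
theorem rlang_single {V : Type} [DecidableEq V] (s0 f0 : V) :
    RLang s0 f0 [⟨fun x => decide (x = s0), fun x => decide (x = f0), fun _ => true⟩] := by
  show f0 ∈ Sym.act _ {s0}
  simp only [Sym.act, Set.mem_singleton_iff, decide_eq_true_eq, and_self, exists_eq, and_true,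
    Set.mem_ofPred_eq, or_true]

theorem not_rlang_idSym {V : Type} {s0 f0 : V} (hne : s0 ≠ f0) : ¬ RLang s0 f0 [idSym V] := by
  show ¬ f0 ∈ (idSym V).act {s0}
  rw [idSym_act]
  exact fun h => hne (by simpa using h.symm)

/-- The bottom of the recursion. -/
theorem norm_baseG {V : Type} {s0 f0 : V} (hne : s0 ≠ f0) {Q : Type} (G : Sym V → Box Unit Q)
    (hM : Sees s0 f0 G) {a : ℕ} (hNorm : NormG G a) : 1 ≤ a := by
  classical
  obtain ⟨P, Act, hAct, hid, hnone, hpass⟩ := hNorm
  by_contra ha
  have ha0 : a = 0 := by omega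
  have hemp : ∀ t, Act t = ∅ := by
    intro t
    have := hAct t
    rw [ha0] at this
    exact Finset.card_eq_zero.1 (by omega)
  have hG : ∀ σ, G σ = G (idSym V) := by
    intro σ
    apply ext'
    intro s q
    by_cases hp : (s, q) ∈ P
    · rw [(hid s q _).2 ⟨hp, rfl⟩]
      exact hpass σ (s, q) hp (fun t _ => by rw [hemp]; simp)
    · rw [hnone σ s q hp, hnone (idSym V) s q hp]
  refine not_rlang_idSym hne (hM _ _ ?_ (rlang_single s0 f0))
  rw [word_singleton, word_singleton, hG]

/-- The top of the recursion. -/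
theorem norm_topG {V : Type} {s0 f0 : V} {Q : Type} [Fintype Q] (G : Sym V → Box Unit Q)
    (hM : Sees s0 f0 G) :
    ∃ G1 : Sym V → Box Unit Q, NormG G1 (2 * Fintype.card Q) ∧ Sees s0 f0 G1 := by
  classical
  obtain ⟨k, hk, hidem⟩ := exists_pow_idem (word G [idSym V])
  set e' := word G (rep [idSym V] k) with he'def
  have he'pow : e' = word G [idSym V] ^ k := word_rep _ _ _
  have he' : e' * e' = e' := by rw [he'pow]; exact hidem
  let m : Sym V → List (Sym V) := fun a => [a] ++ rep [idSym V] (k - 1)
  have hm0 : word G (m (idSym V)) = e' := by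
    show word G ([idSym V] ++ rep [idSym V] (k - 1)) = e'
    rw [word_append, word_rep, ← pow_succ', he'pow]
    congr 1
    omega
  have hactm : ∀ (a : Sym V) (S : Set V), acts (m a) (id '' S) = id '' (a.act S) := by
    intro a S
    show acts (rep [idSym V] (k - 1)) (a.act (id '' S)) = _
    have := acts_idSym (k - 1) (a.act S)
    rw [Set.image_id] at this ⊢
    rw [Set.image_id]
    exact this
  refine ⟨fun a => toLoc e' (word G (m a)), ⟨dom e', fun _ => dom e', ?_, ?_, ?_, ?_⟩, ?_⟩
  · intro _
    refine (Finset.card_le_univ _).trans ?_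
    rw [Fintype.card_prod, Fintype.card_bool]
  · intro s q o
    show toLoc e' (word G (m (idSym V))) s q = some o ↔ _
    rw [hm0, toLoc_self e' he']
    exact loc_iff he' s q o
  · intro σ s q h
    exact toLoc_none h
  · intro σ p hp h
    have hσ : σ = idSym V := by
      by_contra hne
      apply hne
      have h' : ∀ t, bits σ t = bits (idSym V) t := by
        intro t
        by_contra h1
        exact h t h1 hp
      cases σ with
      | mk s d kp =>
        have h0 : ∀ x, s x = false := by
          intro x; have := h' (0, x); simpa [bits, idSym] using this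
        have h1 : ∀ x, d x = false := by
          intro x; have := h' (1, x); simpa [bits, idSym] using this
        have h2 : ∀ x, kp x = true := by
          intro x; have := h' (2, x); simpa [bits, idSym] using this
        unfold idSym
        congr 1
        · funext x; exact h0 x
        · funext x; exact h1 x
        · funext x; exact h2 x
    rw [hσ]
    show toLoc e' (word G (m (idSym V))) p.1 p.2 = _
    rw [hm0, toLoc_self e' he']
    exact (loc_iff he' p.1 p.2 _).2 ⟨hp, rfl⟩
  · exact localizeG (ι := id) Function.injective_id G hM (rep [idSym V] k) m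
      (fun S => acts_idSym k S) hactm

/-- The tower. -/
theorem towerG (hw : LinWordsStmt) (j : ℕ) : ∃ (V : Type) (_ : Fintype V) (s0 f0 : V),
    s0 ≠ f0 ∧ Fintype.card V = 17 * j + 2 ∧
    ∀ (Q : Type) [Fintype Q] (G : Sym V → Box Unit Q), Sees s0 f0 G →
      ∀ a, NormG G a → 2 ^ j ≤ a := by
  induction j with
  | zero =>
    refine ⟨Bool, inferInstance, false, true, by simp, by simp, ?_⟩
    intro Q _ G hM a ha
    rw [pow_zero]
    exact norm_baseG (by simp) G hM ha
  | succ j ih =>
    obtain ⟨V, hV, s0, f0, hne, hcard, hrec⟩ := ih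
    refine ⟨Ext V 8, inferInstance, Sum.inl s0, Sum.inl f0,
      fun h => hne (Sum.inl_injective h), ?_, ?_⟩
    · rw [Fintype.card_sum, Fintype.card_sum, Fintype.card_sum, Fintype.card_fin,
        Fintype.card_unit, hcard]
      ring
    · intro Q _ G hM a ha
      obtain ⟨G1, a', h1, h2, h3⟩ := norm_stepG hw (by norm_num) G hM ha
      have h4 := hrec Q G1 h3 a' h1
      rw [pow_succ]
      omega

/-- Letter boxes over a larger set of tracks. -/
theorem sees_push {V W Q : Type} {s0 f0 : V} (i : V ↪ W) {G : Sym W → Box Unit Q}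
    (h : Sees (i s0) (i f0) G) : Sees s0 f0 (fun a => G (pushSym i a)) := by
  have key : ∀ w : List (Sym V), RLang (i s0) (i f0) (w.map (pushSym i)) ↔ RLang s0 f0 w := by
    intro w
    unfold RLang
    rw [← Set.image_singleton, pushSym_acts]
    exact i.injective.mem_set_image
  intro u v huv hu
  rw [← key] at hu ⊢
  refine h _ _ ?_ hu
  unfold word at huv ⊢
  rw [List.map_map, List.map_map]
  exact huv

/-- The general lower bound: letter boxes on fewer than `2 ^ j` states do not determine the
language on `17 * j + 19` tracks. -/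
theorem sees_lower (j : ℕ) (V : Type) [Fintype V] (s0 f0 : V) (hne : s0 ≠ f0)
    (hV : 17 * j + 19 ≤ Fintype.card V) (Q : Type) [Fintype Q] (G : Sym V → Box Unit Q)
    (hM : Sees s0 f0 G) : 2 ^ j ≤ Fintype.card Q := by
  obtain ⟨V', hV', s0', f0', hne', hcard, hrec⟩ := towerG lin_words (j + 1)
  obtain ⟨i, hi1, hi2⟩ := exists_embedding (X := V') (Y := V) (by omega) hne' hne
  rw [← hi1, ← hi2] at hM
  obtain ⟨G1, h1, h2⟩ := norm_topG _ (sees_push i hM)
  have h3 := hrec Q G1 h2 _ h1
  rw [pow_succ] at h3
  omega

end Vale.Agent.P343.H69
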