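import Vale.Agent.P343.H69.Ends
import Vale.Agent.P343.H69.General
import Vale.Agent.P343.H744.Main

/-!
Boolean combinations of automata whose nondeterministic choices are made on the endmarkers only.
-/

namespace Vale.Agent.P343.H69

open Vale.Agent.P343 Vale.Agent.P343.Box Vale.Agent.P343.H744

section Union

variable {α ι : Type} {σ : ι → Type}

/-- The transitions of the disjoint union of a family of automata. -/
inductive UStep (B : (i : ι) → TwoNFA α (σ i)) :
    (Σ i, σ i) → TapeSym α → (Σ i, σ i) → Move → Prop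
  | mk (i : ι) (p q : σ i) (a : TapeSym α) (mv : Move) : (B i).step p a q mv →
      UStep B ⟨i, p⟩ a ⟨i, q⟩ mv

/-- The disjoint union of a family of automata, with start state `x`. -/
def union (B : (i : ι) → TwoNFA α (σ i)) (x : Σ i, σ i) : TwoNFA α (Σ i, σ i) where
  start := x
  accept := {y | y.2 ∈ (B y.1).accept}
  step := UStep B
  not_beyond_left := by
    intro p q h
    cases h with
    | mk i p q a mv h => exact (B i).not_beyond_left p q h
  not_beyond_right := by
    intro p q h
    cases h with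
    | mk i p q a mv h => exact (B i).not_beyond_right p q h

theorem union_det {B : (i : ι) → TwoNFA α (σ i)} (hB : ∀ i, (B i).DeterministicOnLetters)
    (x : Σ i, σ i) : (union B x).DeterministicOnLetters := by
  intro p a q q' mv mv' h1 h2
  cases (h1 : UStep B p (TapeSym.letter a) q mv) with
  | mk i p q _ _ h1 =>
    cases (h2 : UStep B ⟨i, p⟩ (TapeSym.letter a) q' mv') with
    | mk _ _ q' _ _ h2 =>
      obtain ⟨h3, h4⟩ := hB i p a q q' mv mv' h1 h2
      subst h3
      exact ⟨rfl, h4⟩

theorem union_next {B : (i : ι) → TwoNFA α (σ i)} {x : Σ i, σ i} {w : List α} {i : ι}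
    {c c' : ℕ × σ i} (h : (B i).Next w c c') :
    (union B x).Next w (c.1, ⟨i, c.2⟩) (c'.1, ⟨i, c'.2⟩) := by
  cases h with
  | left j p q h => exact TwoNFA.Next.left j _ _ (UStep.mk i p q _ _ h)
  | stay j p q h => exact TwoNFA.Next.stay j _ _ (UStep.mk i p q _ _ h)
  | right j p q h => exact TwoNFA.Next.right j _ _ (UStep.mk i p q _ _ h)

theorem next_union {B : (i : ι) → TwoNFA α (σ i)} {x : Σ i, σ i} {w : List α}
    {c c' : ℕ × (Σ i, σ i)} (h : (union B x).Next w c c') :
    ∃ (i : ι) (d d' : ℕ × σ i), c = (d.1, ⟨i, d.2⟩) ∧ c' = (d'.1, ⟨i, d'.2⟩) ∧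
      (B i).Next w d d' := by
  cases h with
  | left j p q h =>
    generalize ht : tape w (j + 1) = t at h
    generalize hm : Move.left = mv at h
    cases (h : UStep B p t q mv) with
    | mk i p q _ _ h =>
      subst ht hm
      exact ⟨i, (j + 1, p), (j, q), rfl, rfl, TwoNFA.Next.left j p q h⟩
  | stay j p q h =>
    generalize ht : tape w j = t at h
    generalize hm : Move.stay = mv at h
    cases (h : UStep B p t q mv) with
    | mk i p q _ _ h =>
      subst ht hm
      exact ⟨i, (j, p), (j, q), rfl, rfl, TwoNFA.Next.stay j p q h⟩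
  | right j p q h =>
    generalize ht : tape w j = t at h
    generalize hm : Move.right = mv at h
    cases (h : UStep B p t q mv) with
    | mk i p q _ _ h =>
      subst ht hm
      exact ⟨i, (j, p), (j + 1, q), rfl, rfl, TwoNFA.Next.right j p q h⟩

theorem union_run {B : (i : ι) → TwoNFA α (σ i)} {x : Σ i, σ i} {w : List α} {i : ι}
    {c d : ℕ × σ i} (h : Relation.ReflTransGen ((B i).Next w) c d) :
    Relation.ReflTransGen ((union B x).Next w) (c.1, ⟨i, c.2⟩) (d.1, ⟨i, d.2⟩) := by
  induction h with
  | refl => exact Relation.ReflTransGen.refl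
  | tail _ h2 ih => exact ih.tail (union_next h2)

/-- Each automaton of the family works inside the disjoint union. -/
theorem good_union {B : (i : ι) → TwoNFA α (σ i)} (x : Σ i, σ i) {w : List α} {i : ι}
    {c : ℕ × σ i} : Good (union B x) w (c.1, ⟨i, c.2⟩) ↔ Good (B i) w c := by
  constructor
  · rintro ⟨j, r, h1, h2⟩
    have key : ∀ d : ℕ × (Σ i, σ i), Relation.ReflTransGen ((union B x).Next w) d (j, r) →
        ∀ (i : ι) (c : ℕ × σ i), d = (c.1, ⟨i, c.2⟩) → Good (B i) w c := by
      intro d hd
      induction hd using Relation.ReflTransGen.head_induction_on with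
      | refl =>
        intro i c hc
        obtain ⟨h3, h4⟩ := Prod.mk.inj hc
        subst h4
        exact ⟨c.1, c.2, Relation.ReflTransGen.refl, h2⟩
      | head h3 _ ih =>
        intro i c hc
        obtain ⟨i', e, e', h4, h5, h6⟩ := next_union h3
        rw [hc] at h4
        obtain ⟨h7, h8⟩ := Prod.mk.inj h4
        obtain ⟨h9, h10⟩ := Sigma.mk.inj h8
        subst h9
        have h11 : c = e := Prod.ext h7 (eq_of_heq h10)
        rw [h11]
        exact Good.step h6 (ih i e' h5)
    exact key _ h1 i c rfl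
  · rintro ⟨j, r, h1, h2⟩
    exact ⟨j, ⟨i, r⟩, union_run (d := (j, r)) h1, h2⟩

end Union

/-- The lower bound for Boolean combinations, transferred along a substitution. -/
theorem sum_ge_of_code {V β Q σ : Type} [Fintype V] {s0 f0 : V} (hne : s0 ≠ f0) {j : ℕ}
    (hV : 17 * j + 19 ≤ Fintype.card V)
    (δ : β → Q → Q → Prop) (ι : V → Q) (e : Option Q → σ) (he : Function.Injective e)
    (enc : Sym V → List β)
    (henc : ∀ w : List (Sym V), Reach δ (w.flatMap enc) (ι s0) (ι f0) ↔ RLang s0 f0 w)
    (k : ℕ) (s : Fin k → ℕ) (B : (i : Fin k) → TwoNFA β (Fin (s i)))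
    (hB : ∀ i, (B i).DeterministicOnLetters)
    (hcomb : ∀ u v, (∀ i, (B i).Accepts u ↔ (B i).Accepts v) →
      ((aut δ (ι s0) (ι f0) e).Accepts u ↔ (aut δ (ι s0) (ι f0) e).Accepts v)) :
    2 ^ j ≤ ∑ i, s i := by
  classical
  have hA : ∀ w : List (Sym V), (aut δ (ι s0) (ι f0) e).Accepts (w.flatMap enc) ↔
      RLang s0 f0 w := fun w => (aut_accepts he _).trans (henc w)
  rcases Nat.eq_zero_or_pos k with hk | hk
  · -- no automata at all
    exfalso
    subst hk
    have h1 := (hA _).2 (rlang_single s0 f0)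
    have h2 := (hcomb _ ([idSym V].flatMap enc) (fun i => i.elim0)).1 h1
    exact not_rlang_idSym hne ((hA _).1 h2)
  let x : Σ i, Fin (s i) := ⟨⟨0, hk⟩, (B ⟨0, hk⟩).start⟩
  have hcard : Fintype.card (Σ i, Fin (s i)) = ∑ i, s i := by
    rw [Fintype.card_sigma]
    simp only [Fintype.card_fin]
  rw [← hcard]
  refine sees_lower j V s0 f0 hne hV _ (fun a => word (lbox (union B x)) (enc a)) ?_
  intro u v huv hu
  have hbox : word (lbox (union B x)) (u.flatMap enc) = word (lbox (union B x)) (v.flatMap enc) := by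
    rw [word_flatMap, word_flatMap]
    exact huv
  have hdet := union_det hB x
  have key : ∀ i, (B i).Accepts (u.flatMap enc) ↔ (B i).Accepts (v.flatMap enc) := by
    intro i
    have h3 : ∀ w, (B i).Accepts w ↔ Good (union B x) w (0, ⟨i, (B i).start⟩) := by
      intro w
      exact (good_union (B := B) x (c := (0, (B i).start))).symm
    rw [h3, h3]
    exact ⟨good_of_box_eq hdet hbox, good_of_box_eq hdet hbox.symm⟩
  exact (hA v).1 ((hcomb _ _ key).1 ((hA u).2 hu))

/-- Over every alphabet with at least two letters there is a one-way nondeterministic automaton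
with `n` states whose language is not a Boolean combination of languages of automata that choose
only on the endmarkers and have together fewer than `2 ^ j` states. -/
theorem ends_lower (α : Type) [Nontrivial α] (n j : ℕ) (hn : 17 * j + 27 ≤ n) :
    ∃ A : TwoNFA α (Fin n), A.OneWay ∧
      ∀ (k : ℕ) (s : Fin k → ℕ) (B : (i : Fin k) → TwoNFA α (Fin (s i))),
        (∀ i, (B i).DeterministicOnLetters) →
        (∀ u v, (∀ i, (B i).Accepts u ↔ (B i).Accepts v) → (A.Accepts u ↔ A.Accepts v)) →
        2 ^ j ≤ ∑ i, s i := by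
  obtain ⟨a, b, hab⟩ := exists_pair_ne α
  obtain ⟨f, hf⟩ : ∃ f : Bool → α, Function.Injective f := by
    refine ⟨fun t => if t then a else b, ?_⟩
    intro s t h
    cases s <;> cases t <;> simp at h ⊢
    · exact hab h.symm
    · exact hab h
  obtain ⟨p, hp, hp1, hp2⟩ : ∃ p : ℕ, p.Coprime 5 ∧ 17 * j + 20 ≤ p ∧ p ≤ 17 * j + 21 := by
    have h5 : Nat.Prime 5 := by norm_num
    by_cases h : 5 ∣ 17 * j + 20
    · refine ⟨17 * j + 21, ?_, by omega, le_rfl⟩
      exact ((Nat.Prime.coprime_iff_not_dvd h5).2 (by omega)).symm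
    · exact ⟨17 * j + 20, ((Nat.Prime.coprime_iff_not_dvd h5).2 h).symm, le_rfl, by omega⟩
  have : NeZero p := ⟨by omega⟩
  obtain ⟨g⟩ : Nonempty (Option (Fin (17 * j + 19)) ↪ ZMod p) := by
    apply Function.Embedding.nonempty_of_card_le
    rw [Fintype.card_option, Fintype.card_fin, ZMod.card]
    omega
  have hδ := fun a => (letters hp g a).rename hf
  choose enc henc using hδ
  obtain ⟨e⟩ : Nonempty (Option (Pl p) ↪ Fin n) := by
    apply Function.Embedding.nonempty_of_card_le
    rw [Fintype.card_option, Fintype.card_sum, ZMod.card, ZMod.card, Fintype.card_fin]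
    omega
  have hne : (⟨0, by omega⟩ : Fin (17 * j + 19)) ≠ ⟨1, by omega⟩ := by
    intro h
    have h1 := congrArg Fin.val h
    simp at h1
  refine ⟨aut (rename f (dl p)) (Sum.inl (g (some ⟨0, by omega⟩)))
    (Sum.inl (g (some ⟨1, by omega⟩))) e, aut_oneWay _ _ _ _, ?_⟩
  intro k s B hB hcomb
  refine sum_ge_of_code hne (by rw [Fintype.card_fin]) (rename f (dl p))
    (fun v => Sum.inl (g (some v))) e e.injective enc ?_ k s B hB hcomb
  intro w
  rw [coding (ι := fun v => Sum.inl (g (some v))) henc w]
  constructor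
  · rintro ⟨y, h1, h2⟩
    have h3 := Option.some_injective _ (g.injective (Sum.inl_injective h1))
    rw [← h3] at h2
    exact h2
  · intro h1
    exact ⟨_, rfl, h1⟩

end Vale.Agent.P343.H69
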